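import Vale.Agent.P075.R.Defs
import Mathlib

/-!
# P075, block CAL: from the single scale forms to the truncated kernel
-/

namespace Vale.Agent.P075.R.H97

open MeasureTheory Filter Topology Vale.Agent.P075.R

/-- primitive -/
noncomputable def prim (f : ℝ → ℝ) (y : ℝ) : ℝ := ∫ x in (0 : ℝ)..y, f x

lemma prim_zero (f : ℝ → ℝ) : prim f 0 = 0 := by simp [prim]

lemma prim_hasDeriv {f : ℝ → ℝ} (hf : Continuous f) (y : ℝ) : HasDerivAt (prim f) (f y) y :=
  intervalIntegral.integral_hasDerivAt_right (hf.intervalIntegrable _ _)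
    hf.aestronglyMeasurable.stronglyMeasurableAtFilter hf.continuousAt

lemma prim_cont {f : ℝ → ℝ} (hf : Continuous f) : Continuous (prim f) :=
  continuous_iff_continuousAt.2 fun y => (prim_hasDeriv hf y).continuousAt

lemma ae_ne_half : ∀ᵐ z : ℝ, z ≠ 1 / 2 := by
  simp [ae_iff, measure_singleton]

/-- the Haar sign, integrated against a dilate -/
lemma rho_int {g G : ℝ → ℝ} (hg : Continuous g) (hG : ∀ y, HasDerivAt G (g y) y)
    {t : ℝ} (ht : t ≠ 0) (x : ℝ) :
    ∫ z in (0 : ℝ)..1, rho z * g (t * (x + z))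
      = -(G (t * x) - 2 * G (t * (x + 1 / 2)) + G (t * (x + 1))) / t := by
  have hd : ∀ z : ℝ, HasDerivAt (fun z => G (t * (x + z)) / t) (g (t * (x + z))) z := by
    intro z
    have h1 : HasDerivAt (fun z : ℝ => t * (x + z)) t z := by
      simpa using ((hasDerivAt_id z).const_add x).const_mul t
    have h2 := (hG (t * (x + z))).comp z h1
    have h3 := h2.div_const t
    rw [mul_div_assoc, div_self ht, mul_one] at h3
    exact h3
  have hc : Continuous fun z : ℝ => g (t * (x + z)) := by fun_prop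
  have hI : ∀ a b : ℝ, ∫ z in a..b, g (t * (x + z)) = G (t * (x + b)) / t - G (t * (x + a)) / t :=
    fun a b => intervalIntegral.integral_eq_sub_of_hasDerivAt (fun z _ => hd z)
      (hc.intervalIntegrable _ _)
  have e1 : ∫ z in (0 : ℝ)..(1 / 2), rho z * g (t * (x + z))
      = ∫ z in (0 : ℝ)..(1 / 2), g (t * (x + z)) := by
    refine intervalIntegral.integral_congr_ae ?_
    filter_upwards [ae_ne_half] with z hz hz'
    rw [Set.uIoc_of_le (by norm_num)] at hz'
    have : z < 1 / 2 := lt_of_le_of_ne hz'.2 hz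
    rw [rho, if_pos this, one_mul]
  have e2 : ∫ z in (1 / 2 : ℝ)..1, rho z * g (t * (x + z))
      = ∫ z in (1 / 2 : ℝ)..1, -g (t * (x + z)) := by
    refine intervalIntegral.integral_congr fun z hz => ?_
    rw [Set.uIcc_of_le (by norm_num)] at hz
    have : ¬ z < 1 / 2 := not_lt.2 hz.1
    show rho z * g (t * (x + z)) = -g (t * (x + z))
    rw [rho, if_neg this, neg_one_mul]
  have i1 : IntervalIntegrable (fun z => rho z * g (t * (x + z))) volume 0 (1 / 2) := by
    refine (hc.intervalIntegrable 0 (1 / 2)).congr_ae ?_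
    have := ae_restrict_of_ae (s := Set.uIoc (0 : ℝ) (1 / 2)) ae_ne_half
    filter_upwards [this, ae_restrict_mem measurableSet_uIoc] with z hz hz'
    rw [Set.uIoc_of_le (by norm_num)] at hz'
    have : z < 1 / 2 := lt_of_le_of_ne hz'.2 hz
    rw [rho, if_pos this, one_mul]
  have i2 : IntervalIntegrable (fun z => rho z * g (t * (x + z))) volume (1 / 2) 1 := by
    refine (hc.neg.intervalIntegrable (1 / 2) 1).congr_ae ?_
    filter_upwards [ae_restrict_mem measurableSet_uIoc] with z hz'
    rw [Set.uIoc_of_le (by norm_num)] at hz'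
    have : ¬ z < 1 / 2 := not_lt.2 hz'.1.le
    rw [rho, if_neg this, neg_one_mul, Pi.neg_apply]
  rw [← intervalIntegral.integral_add_adjacent_intervals i1 i2, e1, e2,
    intervalIntegral.integral_neg, hI, hI]
  ring_nf

section Ac

variable {w : ℝ → ℝ}

/-- third primitive of `w` -/
noncomputable def V3 (w : ℝ → ℝ) : ℝ → ℝ := prim (prim (prim w))

/-- the odd part times two -/
noncomputable def od (w : ℝ → ℝ) (y : ℝ) : ℝ := w y - w (-y)

lemma od_cont (hw : Continuous w) : Continuous (od w) := by unfold od; fun_prop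

lemma Ac_eq_V (hw : Continuous w) {t : ℝ} (ht : t ≠ 0) :
    Ac w t = -(V3 w (-(t * (3 / 2))) - 6 * V3 w (-t) + 15 * V3 w (-(t / 2)) - 20 * V3 w 0
      + 15 * V3 w (t / 2) - 6 * V3 w t + V3 w (t * (3 / 2))) / t ^ 3 := by
  have hw1 := prim_cont hw
  have hw2 := prim_cont hw1
  have hw3 : Continuous (V3 w) := prim_cont hw2
  have d1 := fun y => prim_hasDeriv hw y
  have d2 := fun y => prim_hasDeriv hw1 y
  have d3 : ∀ y, HasDerivAt (V3 w) (prim (prim w) y) y := fun y => prim_hasDeriv hw2 y
  have s1 : ∀ p q : ℝ, ∫ z in (0 : ℝ)..1, rho p * rho q * rho z * w (t * (p + q + z - 3 / 2))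
      = rho p * (rho q * (-(1 / t)) * (prim w (t * (p + q - 3 / 2))
        - 2 * prim w (t * (p + q - 1)) + prim w (t * (p + q - 1 / 2)))) := by
    intro p q
    have := rho_int hw d1 ht (p + q - 3 / 2)
    have e : (fun z => rho p * rho q * rho z * w (t * (p + q + z - 3 / 2)))
        = fun z => rho p * rho q * (rho z * w (t * (p + q - 3 / 2 + z))) := by
      funext z
      rw [show p + q + z - 3 / 2 = p + q - 3 / 2 + z by ring]; ring
    rw [e, intervalIntegral.integral_const_mul, this]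
    rw [show p + q - 3 / 2 + 1 / 2 = p + q - 1 by ring,
      show p + q - 3 / 2 + 1 = p + q - 1 / 2 by ring]
    ring
  have s2 : ∀ p : ℝ, ∫ q in (0 : ℝ)..1, rho p * (rho q * (-(1 / t)) * (prim w (t * (p + q - 3 / 2))
        - 2 * prim w (t * (p + q - 1)) + prim w (t * (p + q - 1 / 2))))
      = rho p * ((1 / t) ^ 2 * (prim (prim w) (t * (p - 3 / 2)) - 4 * prim (prim w) (t * (p - 1))
        + 6 * prim (prim w) (t * (p - 1 / 2)) - 4 * prim (prim w) (t * p)
        + prim (prim w) (t * (p + 1 / 2)))) := by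
    intro p
    rw [intervalIntegral.integral_const_mul]
    congr 1
    have e : (fun q => rho q * (-(1 / t)) * (prim w (t * (p + q - 3 / 2))
        - 2 * prim w (t * (p + q - 1)) + prim w (t * (p + q - 1 / 2))))
        = fun q => (-(1 / t)) * (rho q * (fun y => prim w y - 2 * prim w (y + t / 2)
          + prim w (y + t)) (t * (p - 3 / 2 + q))) := by
      funext q
      simp only
      rw [show t * (p - 3 / 2 + q) + t / 2 = t * (p + q - 1) by ring,
        show t * (p - 3 / 2 + q) + t = t * (p + q - 1 / 2) by ring,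
        show p - 3 / 2 + q = p + q - 3 / 2 by ring]
      ring
    rw [e, intervalIntegral.integral_const_mul]
    have hG : ∀ y, HasDerivAt (fun y => prim (prim w) y - 2 * prim (prim w) (y + t / 2)
        + prim (prim w) (y + t)) ((fun y => prim w y - 2 * prim w (y + t / 2)
          + prim w (y + t)) y) y := by
      intro y
      have a1 := d2 y
      have a2 := (d2 (y + t / 2)).comp_add_const y (t / 2)
      have a3 := (d2 (y + t)).comp_add_const y t
      exact (a1.sub (a2.const_mul 2)).add a3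
    rw [rho_int (by fun_prop) hG ht]
    rw [show t * (p - 3 / 2) + t / 2 = t * (p - 1) by ring,
      show t * (p - 3 / 2) + t = t * (p - 1 / 2) by ring,
      show t * (p - 3 / 2 + 1 / 2) + t / 2 = t * (p - 1 / 2) by ring,
      show t * (p - 3 / 2 + 1 / 2) + t = t * p by ring,
      show t * (p - 3 / 2 + 1 / 2) = t * (p - 1) by ring,
      show t * (p - 3 / 2 + 1) + t / 2 = t * p by ring,
      show t * (p - 3 / 2 + 1) + t = t * (p + 1 / 2) by ring,
      show t * (p - 3 / 2 + 1) = t * (p - 1 / 2) by ring]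
    ring
  unfold Ac
  simp only [s1, s2]
  have e : (fun p => rho p * ((1 / t) ^ 2 * (prim (prim w) (t * (p - 3 / 2))
        - 4 * prim (prim w) (t * (p - 1))
        + 6 * prim (prim w) (t * (p - 1 / 2)) - 4 * prim (prim w) (t * p)
        + prim (prim w) (t * (p + 1 / 2)))))
      = fun p => (1 / t) ^ 2 * (rho p * (fun y => prim (prim w) y - 4 * prim (prim w) (y + t / 2)
        + 6 * prim (prim w) (y + t) - 4 * prim (prim w) (y + 3 * t / 2)
        + prim (prim w) (y + 2 * t)) (t * (-3 / 2 + p))) := by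
    funext p
    simp only
    rw [show t * (-3 / 2 + p) + t / 2 = t * (p - 1) by ring,
      show t * (-3 / 2 + p) + t = t * (p - 1 / 2) by ring,
      show t * (-3 / 2 + p) + 3 * t / 2 = t * p by ring,
      show t * (-3 / 2 + p) + 2 * t = t * (p + 1 / 2) by ring,
      show -3 / 2 + p = p - 3 / 2 by ring]
    ring
  rw [e, intervalIntegral.integral_const_mul]
  have hG : ∀ y, HasDerivAt (fun y => V3 w y - 4 * V3 w (y + t / 2)
        + 6 * V3 w (y + t) - 4 * V3 w (y + 3 * t / 2) + V3 w (y + 2 * t))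
        ((fun y => prim (prim w) y - 4 * prim (prim w) (y + t / 2)
        + 6 * prim (prim w) (y + t) - 4 * prim (prim w) (y + 3 * t / 2)
        + prim (prim w) (y + 2 * t)) y) y := by
    intro y
    have a1 := d3 y
    have a2 := (d3 (y + t / 2)).comp_add_const y (t / 2)
    have a3 := (d3 (y + t)).comp_add_const y t
    have a4 := (d3 (y + 3 * t / 2)).comp_add_const y (3 * t / 2)
    have a5 := (d3 (y + 2 * t)).comp_add_const y (2 * t)
    exact (((a1.sub (a2.const_mul 4)).add (a3.const_mul 6)).sub (a4.const_mul 4)).add a5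
  rw [rho_int (by fun_prop) hG ht]
  rw [show t * (-3 / 2) + t / 2 = -t by ring,
    show t * (-3 / 2) + t = -(t / 2) by ring,
    show t * (-3 / 2) + 3 * t / 2 = 0 by ring,
    show t * (-3 / 2) + 2 * t = t / 2 by ring,
    show t * (-3 / 2 + 1 / 2) + t / 2 = -(t / 2) by ring,
    show t * (-3 / 2 + 1 / 2) + t = 0 by ring,
    show t * (-3 / 2 + 1 / 2) + 3 * t / 2 = t / 2 by ring,
    show t * (-3 / 2 + 1 / 2) + 2 * t = t by ring,
    show t * (-3 / 2 + 1 / 2) = -t by ring,
    show t * (-3 / 2 + 1) + t / 2 = 0 by ring,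
    show t * (-3 / 2 + 1) + t = t / 2 by ring,
    show t * (-3 / 2 + 1) + 3 * t / 2 = t by ring,
    show t * (-3 / 2 + 1) + 2 * t = t * (3 / 2) by ring,
    show t * (-3 / 2 + 1) = -(t / 2) by ring,
    show t * (-3 / 2) = -(t * (3 / 2)) by ring]
  field_simp
  ring

/-- third primitive of the odd part -/
noncomputable def U3 (w : ℝ → ℝ) : ℝ → ℝ := prim (prim (prim (od w)))

lemma prim_neg_even {f g : ℝ → ℝ} (h : ∀ y, g y = f y - f (-y)) (hf : Continuous f) (y : ℝ) :
    prim g y = prim f y + prim f (-y) := by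
  have : prim g y = (∫ x in (0 : ℝ)..y, f x) - ∫ x in (0 : ℝ)..y, f (-x) := by
    rw [← intervalIntegral.integral_sub (hf.intervalIntegrable _ _)
      ((by fun_prop : Continuous fun x => f (-x)).intervalIntegrable _ _)]
    exact intervalIntegral.integral_congr fun x _ => h x
  rw [this, intervalIntegral.integral_comp_neg, neg_zero, prim, prim,
    intervalIntegral.integral_symm (-y) 0]
  ring

lemma prim_neg_odd {f g : ℝ → ℝ} (h : ∀ y, g y = f y + f (-y)) (hf : Continuous f) (y : ℝ) :
    prim g y = prim f y - prim f (-y) := by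
  have : prim g y = (∫ x in (0 : ℝ)..y, f x) + ∫ x in (0 : ℝ)..y, f (-x) := by
    rw [← intervalIntegral.integral_add (hf.intervalIntegrable _ _)
      ((by fun_prop : Continuous fun x => f (-x)).intervalIntegrable _ _)]
    exact intervalIntegral.integral_congr fun x _ => h x
  rw [this, intervalIntegral.integral_comp_neg, neg_zero, prim, prim,
    intervalIntegral.integral_symm (-y) 0]
  ring

lemma U3_eq (hw : Continuous w) (y : ℝ) : U3 w y = V3 w y + V3 w (-y) := by
  have h1 : ∀ y, prim (od w) y = prim w y + prim w (-y) :=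
    prim_neg_even (fun _ => rfl) hw
  have h2 : ∀ y, prim (prim (od w)) y = prim (prim w) y - prim (prim w) (-y) :=
    prim_neg_odd h1 (prim_cont hw)
  exact prim_neg_even h2 (prim_cont (prim_cont hw)) y

lemma Ac_eq_U (hw : Continuous w) {t : ℝ} (ht : t ≠ 0) :
    Ac w t = -(U3 w (t * (3 / 2)) - 6 * U3 w t + 15 * U3 w (t / 2)) / t ^ 3 := by
  rw [Ac_eq_V hw ht, U3_eq hw, U3_eq hw, U3_eq hw]
  have : V3 w 0 = 0 := prim_zero _
  rw [this]
  ring

lemma prim_bound {f : ℝ → ℝ} {c : ℝ} {n : ℕ} {y : ℝ} (hy : 0 ≤ y)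
    (h : ∀ x, 0 ≤ x → |f x| ≤ c * x ^ n) : |prim f y| ≤ c / (n + 1) * y ^ (n + 1) := by
  have h1 : ‖∫ x in (0 : ℝ)..y, f x‖ ≤ ∫ x in (0 : ℝ)..y, c * x ^ n := by
    refine intervalIntegral.norm_integral_le_of_norm_le hy ?_
      ((by fun_prop : Continuous fun x : ℝ => c * x ^ n).intervalIntegrable _ _)
    exact ae_of_all _ fun x hx => h x hx.1.le
  rw [intervalIntegral.integral_const_mul, integral_pow] at h1
  rw [Real.norm_eq_abs] at h1
  refine h1.trans (le_of_eq ?_)
  rw [zero_pow (Nat.succ_ne_zero n)]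
  ring

lemma od_bound {S : ℝ} (hS : ∀ u, |w u| ≤ S) (y : ℝ) : |od w y| ≤ 2 * S := by
  unfold od
  have h1 := hS y
  have h2 := hS (-y)
  rw [abs_le] at *
  constructor <;> linarith [h1.1, h1.2, h2.1, h2.2]

lemma U1_bound {S : ℝ} (hS : ∀ u, |w u| ≤ S) {y : ℝ} (hy : 0 ≤ y) :
    |prim (od w) y| ≤ 2 * S * y := by
  have := prim_bound (f := od w) (c := 2 * S) (n := 0) hy (fun x _ => by
    simpa using od_bound hS x)
  simpa using this

lemma U2_bound {S : ℝ} (hS : ∀ u, |w u| ≤ S) {y : ℝ} (hy : 0 ≤ y) :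
    |prim (prim (od w)) y| ≤ S * y ^ 2 := by
  have := prim_bound (f := prim (od w)) (c := 2 * S) (n := 1) hy (fun x hx => by
    simpa using U1_bound hS hx)
  refine this.trans (le_of_eq ?_)
  norm_num

lemma U3_bound {S : ℝ} (hS : ∀ u, |w u| ≤ S) {y : ℝ} (hy : 0 ≤ y) :
    |U3 w y| ≤ S / 3 * y ^ 3 := by
  have := prim_bound (f := prim (prim (od w))) (c := S) (n := 2) hy (fun x hx => by
    simpa using U2_bound hS hx)
  refine this.trans (le_of_eq ?_)
  norm_num

/-- quotients by powers are integrable away from zero -/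
lemma ii_div {f : ℝ → ℝ} (hf : Continuous f) (n : ℕ) {a b : ℝ} (ha : 0 < a) (hb : 0 < b) :
    IntervalIntegrable (fun y => f y / y ^ n) volume a b := by
  refine ContinuousOn.intervalIntegrable ?_
  refine hf.continuousOn.div (by fun_prop) fun y hy => ?_
  have : 0 < y := lt_of_lt_of_le (lt_min ha hb) hy.1
  positivity

lemma U3_cont (hw : Continuous w) : Continuous (U3 w) :=
  prim_cont (prim_cont (prim_cont (od_cont hw)))

/-- integration by parts, three times -/
lemma parts (hw : Continuous w) {a b : ℝ} (ha : 0 < a) (hb : 0 < b) :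
    (∫ y in a..b, od w y / y) = 6 * (∫ y in a..b, U3 w y / y ^ 4)
      + (2 * U3 w b / b ^ 3 + prim (prim (od w)) b / b ^ 2 + prim (od w) b / b)
      - (2 * U3 w a / a ^ 3 + prim (prim (od w)) a / a ^ 2 + prim (od w) a / a) := by
  have ho := od_cont hw
  have h1 := fun y => prim_hasDeriv ho y
  have h2 := fun y => prim_hasDeriv (prim_cont ho) y
  have h3 : ∀ y, HasDerivAt (U3 w) (prim (prim (od w)) y) y :=
    fun y => prim_hasDeriv (prim_cont (prim_cont ho)) y
  have hi1 : IntervalIntegrable (fun y => od w y / y) volume a b := by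
    simpa using ii_div ho 1 ha hb
  have hi2 := ii_div (U3_cont hw) 4 ha hb
  have key : ∫ y in a..b, (od w y / y - 6 * (U3 w y / y ^ 4))
      = (2 * U3 w b / b ^ 3 + prim (prim (od w)) b / b ^ 2 + prim (od w) b / b)
      - (2 * U3 w a / a ^ 3 + prim (prim (od w)) a / a ^ 2 + prim (od w) a / a) := by
    refine intervalIntegral.integral_eq_sub_of_hasDerivAt
      (f := fun y => 2 * U3 w y / y ^ 3 + prim (prim (od w)) y / y ^ 2 + prim (od w) y / y)
      (fun y hy => ?_) (hi1.sub (hi2.const_mul 6))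
    have hy0 : 0 < y := lt_of_lt_of_le (lt_min ha hb) hy.1
    have e1 := ((h3 y).const_mul 2).div (hasDerivAt_pow 3 y) (by positivity)
    have e2 := (h2 y).div (hasDerivAt_pow 2 y) (by positivity)
    have e3 := (h1 y).div (hasDerivAt_id y) hy0.ne'
    refine ((e1.add e2).add e3).congr_deriv ?_
    simp only [id]
    field_simp
    norm_num
    ring
  rw [intervalIntegral.integral_sub hi1 (hi2.const_mul 6), intervalIntegral.integral_const_mul]
    at key
  linarith

/-- short integrals -/
lemma short {S : ℝ} (hS : ∀ u, |w u| ≤ S) {a b : ℝ} (ha : 0 < a)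
    (hab : a ≤ b) : |∫ y in a..b, U3 w y / y ^ 4| ≤ S / 3 * ((b - a) / a) := by
  have hS0 : 0 ≤ S := (abs_nonneg _).trans (hS 0)
  have := intervalIntegral.norm_integral_le_of_norm_le_const (a := a) (b := b)
    (f := fun y => U3 w y / y ^ 4) (C := S / 3 / a) (fun y hy => by
      rw [Set.uIoc_of_le hab] at hy
      have hy0 : 0 < y := ha.trans hy.1
      rw [Real.norm_eq_abs, abs_div, abs_of_pos (by positivity : 0 < y ^ 4),
        div_le_div_iff₀ (by positivity) ha]
      have := U3_bound hS hy0.le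
      calc |U3 w y| * a ≤ (S / 3 * y ^ 3) * a := mul_le_mul_of_nonneg_right this ha.le
        _ ≤ (S / 3 * y ^ 3) * y := mul_le_mul_of_nonneg_left hy.1.le (by positivity)
        _ = S / 3 * y ^ 4 := by ring)
  rw [Real.norm_eq_abs, abs_of_nonneg (sub_nonneg.2 hab)] at this
  refine this.trans (le_of_eq ?_)
  field_simp

lemma scale (c : ℝ) (hc : 0 < c) {a b : ℝ} :
    (∫ t in a..b, U3 w (c * t) / t ^ 4) = c ^ 3 * ∫ y in (c * a)..(c * b), U3 w y / y ^ 4 := by
  have h := intervalIntegral.integral_comp_mul_left (a := a) (b := b)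
    (fun y => U3 w y / y ^ 4) hc.ne'
  have e : (fun t => U3 w (c * t) / t ^ 4) = fun t => c ^ 4 * (U3 w (c * t) / (c * t) ^ 4) := by
    funext t
    by_cases ht : t = 0
    · simp [ht]
    · field_simp
  rw [e, intervalIntegral.integral_const_mul, h, smul_eq_mul]
  field_simp

lemma Ac_ii (hw : Continuous w) {a b : ℝ} (ha : 0 < a) (hb : 0 < b) :
    IntervalIntegrable (fun t => Ac w t / t) volume a b := by
  have h : IntervalIntegrable (fun t => -(U3 w (t * (3 / 2)) - 6 * U3 w t + 15 * U3 w (t / 2))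
      / t ^ 4) volume a b := by
    have := U3_cont hw
    exact ii_div (by fun_prop) 4 ha hb
  refine h.congr_ae ?_
  filter_upwards [ae_restrict_mem measurableSet_uIoc] with t ht
  have ht0 : 0 < t := lt_trans (lt_min ha hb) ht.1
  rw [Ac_eq_U hw ht0.ne']
  field_simp

/-- the integral of the single scale forms -/
lemma int_Ac (hw : Continuous w) {a b : ℝ} (ha : 0 < a) (hb : 0 < b) :
    (∫ t in a..b, Ac w t / t) = -(27 / 8 * (∫ y in (3 / 2 * a)..(3 / 2 * b), U3 w y / y ^ 4)
      - 6 * (∫ y in a..b, U3 w y / y ^ 4)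
      + 15 / 8 * ∫ y in (1 / 2 * a)..(1 / 2 * b), U3 w y / y ^ 4) := by
  have hU := U3_cont hw
  have e : (∫ t in a..b, Ac w t / t) = ∫ t in a..b, -(U3 w (3 / 2 * t) / t ^ 4
      - 6 * (U3 w t / t ^ 4) + 15 * (U3 w (1 / 2 * t) / t ^ 4)) := by
    refine intervalIntegral.integral_congr fun t ht => ?_
    have ht0 : 0 < t := lt_of_lt_of_le (lt_min ha hb) ht.1
    show Ac w t / t = _
    rw [Ac_eq_U hw ht0.ne', show t * (3 / 2) = 3 / 2 * t by ring, show t / 2 = 1 / 2 * t by ring]
    field_simp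
  have i1 : IntervalIntegrable (fun t => U3 w (3 / 2 * t) / t ^ 4) volume a b :=
    ii_div (by fun_prop) 4 ha hb
  have i2 : IntervalIntegrable (fun t => U3 w t / t ^ 4) volume a b := ii_div hU 4 ha hb
  have i3 : IntervalIntegrable (fun t => U3 w (1 / 2 * t) / t ^ 4) volume a b :=
    ii_div (by fun_prop) 4 ha hb
  rw [e, intervalIntegral.integral_neg, intervalIntegral.integral_add (i1.sub (i2.const_mul 6))
    (i3.const_mul 15), intervalIntegral.integral_sub i1 (i2.const_mul 6),
    intervalIntegral.integral_const_mul, intervalIntegral.integral_const_mul,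
    scale (3 / 2) (by norm_num), scale (1 / 2) (by norm_num)]
  ring

/-- the dyadic decomposition -/
lemma dyadic (hw : Continuous w) {K : ℝ}
    (hK : ∀ t : ℝ, 0 < t → ∀ J : ℕ, ∑ j ∈ Finset.range (J + 1), |Ac w (2 ^ j * t)| ≤ K)
    {a b : ℝ} (ha : 0 < a) (hab : a ≤ b) : |∫ t in a..b, Ac w t / t| ≤ K := by
  have hb : 0 < b := ha.trans_le hab
  obtain ⟨J, hJ⟩ := pow_unbounded_of_one_lt (b / a) (one_lt_two : (1 : ℝ) < 2)
  have hJ' : b ≤ 2 ^ (J + 1) * a := by
    rw [div_lt_iff₀ ha] at hJ
    refine hJ.le.trans (mul_le_mul_of_nonneg_right ?_ ha.le)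
    exact pow_le_pow_right₀ one_le_two (Nat.le_succ J)
  set g : ℝ → ℝ := fun t => |Ac w t / t| with hg
  have hgi : ∀ {a b : ℝ}, 0 < a → 0 < b → IntervalIntegrable g volume a b :=
    fun ha hb => (Ac_ii hw ha hb).abs
  have h1 : |∫ t in a..b, Ac w t / t| ≤ ∫ t in a..b, g t :=
    intervalIntegral.abs_integral_le_integral_abs hab
  have h2 : (∫ t in a..b, g t) ≤ ∫ t in a..(2 ^ (J + 1) * a), g t := by
    rw [← intervalIntegral.integral_add_adjacent_intervals (hgi ha hb)
      (hgi hb (hb.trans_le hJ'))]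
    have : 0 ≤ ∫ t in b..(2 ^ (J + 1) * a), g t :=
      intervalIntegral.integral_nonneg hJ' fun t _ => abs_nonneg _
    linarith
  have h3 : (∫ t in a..(2 ^ (J + 1) * a), g t)
      = ∑ j ∈ Finset.range (J + 1), ∫ t in (2 ^ j * a)..(2 ^ (j + 1) * a), g t := by
    rw [intervalIntegral.sum_integral_adjacent_intervals (a := fun j => (2 : ℝ) ^ j * a)
      (fun k _ => hgi (by positivity) (by positivity))]
    norm_num
  have h4 : ∀ j : ℕ, (∫ t in (2 ^ j * a)..(2 ^ (j + 1) * a), g t)
      = ∫ t in a..(2 * a), |Ac w (2 ^ j * t)| / t := by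
    intro j
    have h := intervalIntegral.integral_comp_mul_left (a := a) (b := 2 * a) g
      (show (2 : ℝ) ^ j ≠ 0 by positivity)
    have e : (∫ t in a..(2 * a), |Ac w (2 ^ j * t)| / t)
        = ∫ t in a..(2 * a), 2 ^ j * g (2 ^ j * t) := by
      refine intervalIntegral.integral_congr fun t ht => ?_
      rw [Set.uIcc_of_le (by linarith)] at ht
      have ht0 : 0 < t := ha.trans_le ht.1
      show |Ac w (2 ^ j * t)| / t = 2 ^ j * |Ac w (2 ^ j * t) / (2 ^ j * t)|
      rw [abs_div, abs_of_pos (show 0 < 2 ^ j * t by positivity)]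
      field_simp
    rw [e, intervalIntegral.integral_const_mul, h, smul_eq_mul, ← mul_assoc,
      mul_inv_cancel₀ (by positivity), one_mul]
    ring_nf
  have i4 : ∀ j : ℕ, IntervalIntegrable (fun t => |Ac w (2 ^ j * t)| / t) volume a (2 * a) := by
    intro j
    have h : IntervalIntegrable (fun t => Ac w (2 ^ j * t) / (2 ^ j * t)) volume a (2 * a) := by
      have := (Ac_ii hw (a := 2 ^ j * a) (b := 2 ^ j * (2 * a)) (by positivity)
        (by positivity)).comp_mul_left (c := (2 : ℝ) ^ j)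
      simpa [mul_div_cancel_left₀] using this
    refine ((h.abs).const_mul ((2 : ℝ) ^ j)).congr_ae ?_
    filter_upwards [ae_restrict_mem measurableSet_uIoc] with t ht
    rw [Set.uIoc_of_le (by linarith)] at ht
    have ht0 : 0 < t := ha.trans ht.1
    rw [abs_div, abs_of_pos (show 0 < 2 ^ j * t by positivity)]
    field_simp
  have h5 : (∑ j ∈ Finset.range (J + 1), ∫ t in a..(2 * a), |Ac w (2 ^ j * t)| / t)
      ≤ ∫ _ in a..(2 * a), K / a := by
    rw [← intervalIntegral.integral_finsetSum (fun j _ => i4 j)]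
    have isum : IntervalIntegrable (fun t => ∑ j ∈ Finset.range (J + 1),
        |Ac w (2 ^ j * t)| / t) volume a (2 * a) := by
      have := IntervalIntegrable.sum (Finset.range (J + 1)) (fun j _ => i4 j)
      refine this.congr_ae (ae_of_all _ fun t => ?_)
      simp only [Finset.sum_apply]
    refine intervalIntegral.integral_mono_on (by linarith) isum intervalIntegrable_const
      fun t ht => ?_
    have ht0 : 0 < t := ha.trans_le ht.1
    have hK0 : 0 ≤ K := le_trans (Finset.sum_nonneg fun _ _ => abs_nonneg _) (hK 1 one_pos 0)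
    rw [← Finset.sum_div]
    exact div_le_div₀ hK0 (hK t ht0 J) ha ht.1
  have h6 : (∫ _ in a..(2 * a), K / a) = K := by
    rw [intervalIntegral.integral_const, smul_eq_mul]
    field_simp
    ring
  calc |∫ t in a..b, Ac w t / t| ≤ ∫ t in a..b, g t := h1
    _ ≤ ∫ t in a..(2 ^ (J + 1) * a), g t := h2
    _ = ∑ j ∈ Finset.range (J + 1), ∫ t in a..(2 * a), |Ac w (2 ^ j * t)| / t := by
        rw [h3]; exact Finset.sum_congr rfl fun j _ => h4 j
    _ ≤ K := h6 ▸ h5

end Ac

/-- **CAL** -/
theorem cal : StCal := by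
  refine ⟨27, fun w hw S K hS hK ε R hε hεR => ?_⟩
  obtain ⟨hw, -⟩ := hw
  have hR : 0 < R := hε.trans hεR
  have hS0 : 0 ≤ S := (abs_nonneg _).trans (hS 0)
  have hK0 : 0 ≤ K := le_trans (Finset.sum_nonneg fun _ _ => abs_nonneg _) (hK 1 one_pos 0)
  have hA := dyadic hw hK hε hεR.le
  have hU := U3_cont hw
  have ii : ∀ {a b : ℝ}, 0 < a → 0 < b → IntervalIntegrable (fun y => U3 w y / y ^ 4) volume a b :=
    fun ha hb => ii_div hU 4 ha hb
  have e1 : (∫ y in (3 / 2 * ε)..(3 / 2 * R), U3 w y / y ^ 4)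
      = (∫ y in ε..R, U3 w y / y ^ 4) - (∫ y in ε..(3 / 2 * ε), U3 w y / y ^ 4)
        + ∫ y in R..(3 / 2 * R), U3 w y / y ^ 4 := by
    have a1 := intervalIntegral.integral_add_adjacent_intervals
      (ii hε (show 0 < 3 / 2 * ε by positivity))
      (ii (show 0 < 3 / 2 * ε by positivity) (show 0 < 3 / 2 * R by positivity))
    have a2 := intervalIntegral.integral_add_adjacent_intervals
      (ii hε hR) (ii hR (show 0 < 3 / 2 * R by positivity))
    linarith
  have e2 : (∫ y in (1 / 2 * ε)..(1 / 2 * R), U3 w y / y ^ 4)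
      = (∫ y in ε..R, U3 w y / y ^ 4) + (∫ y in (1 / 2 * ε)..ε, U3 w y / y ^ 4)
        - ∫ y in (1 / 2 * R)..R, U3 w y / y ^ 4 := by
    have a1 := intervalIntegral.integral_add_adjacent_intervals
      (ii (show 0 < 1 / 2 * ε by positivity) (show 0 < 1 / 2 * R by positivity))
      (ii (show 0 < 1 / 2 * R by positivity) hR)
    have a2 := intervalIntegral.integral_add_adjacent_intervals
      (ii (show 0 < 1 / 2 * ε by positivity) hε) (ii hε hR)
    linarith
  have b1 := short hS hε (show ε ≤ 3 / 2 * ε by linarith)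
  have b2 := short hS hR (show R ≤ 3 / 2 * R by linarith)
  have b3 := short hS (show 0 < 1 / 2 * ε by positivity) (show 1 / 2 * ε ≤ ε by linarith)
  have b4 := short hS (show 0 < 1 / 2 * R by positivity) (show 1 / 2 * R ≤ R by linarith)
  have c1 : (3 / 2 * ε - ε) / ε = 1 / 2 := by field_simp; ring
  have c2 : (3 / 2 * R - R) / R = 1 / 2 := by field_simp; ring
  have c3 : (ε - 1 / 2 * ε) / (1 / 2 * ε) = 1 := by field_simp; ring
  have c4 : (R - 1 / 2 * R) / (1 / 2 * R) = 1 := by field_simp; ring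
  rw [c1] at b1
  rw [c2] at b2
  rw [c3] at b3
  rw [c4] at b4
  have hp := parts hw hε hR
  have hi := int_Ac hw hε hR
  rw [e1, e2] at hi
  have q : ∀ y : ℝ, 0 < y → |2 * U3 w y / y ^ 3 + prim (prim (od w)) y / y ^ 2
      + prim (od w) y / y| ≤ 11 / 3 * S := by
    intro y hy
    have k1 : |2 * U3 w y / y ^ 3| ≤ 2 / 3 * S := by
      rw [abs_div, abs_mul, abs_of_pos (by positivity : 0 < y ^ 3), div_le_iff₀ (by positivity),
        abs_of_pos (by norm_num : (0 : ℝ) < 2)]
      have := U3_bound hS hy.le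
      linarith
    have k2 : |prim (prim (od w)) y / y ^ 2| ≤ S := by
      rw [abs_div, abs_of_pos (by positivity : 0 < y ^ 2), div_le_iff₀ (by positivity)]
      exact U2_bound hS hy.le
    have k3 : |prim (od w) y / y| ≤ 2 * S := by
      rw [abs_div, abs_of_pos hy, div_le_iff₀ hy]
      exact U1_bound hS hy.le
    calc _ ≤ |2 * U3 w y / y ^ 3 + prim (prim (od w)) y / y ^ 2| + |prim (od w) y / y| :=
          abs_add_le _ _
      _ ≤ |2 * U3 w y / y ^ 3| + |prim (prim (od w)) y / y ^ 2| + |prim (od w) y / y| := by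
          gcongr; exact abs_add_le _ _
      _ ≤ _ := by linarith
  have q1 := q R hR
  have q2 := q ε hε
  have e0 : (∫ u in ε..R, (w u - w (-u)) / u) = ∫ y in ε..R, od w y / y := rfl
  rw [e0]
  rw [abs_le] at *
  constructor <;> linarith [hA.1, hA.2, b1.1, b1.2, b2.1, b2.2, b3.1, b3.2, b4.1, b4.2, q1.1,
    q1.2, q2.1, q2.2]

end Vale.Agent.P075.R.H97

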