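import Vale.Agent.P075.R.Defs
import Mathlib

/-!
# P075, block WL: elementary facts on `W`
-/

namespace Vale.Agent.P075.R.H97

open MeasureTheory Filter Topology Vale.Agent.P075.R

lemma mp_shear (u : ℝ) : MeasurePreserving (fun p : ℝ × ℝ => (p.1, u - p.1 - p.2))
    (volume : Measure (ℝ × ℝ)) volume := by
  have := (MeasurePreserving.id (volume : Measure ℝ)).skew_product
    (μc := (volume : Measure ℝ)) (μd := (volume : Measure ℝ))
    (g := fun a y => u - a - y) (by fun_prop) (ae_of_all _ fun a =>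
      (Measure.measurePreserving_sub_left (volume : Measure ℝ) (u - a)).map_eq)
  exact this

lemma mp_one (u : ℝ) : MeasurePreserving (fun p : ℝ × ℝ => (p.2, u - p.1 - p.2))
    (volume : Measure (ℝ × ℝ)) volume := by
  have h := (mp_shear u).comp (Measure.measurePreserving_swap (μ := (volume : Measure ℝ))
    (ν := (volume : Measure ℝ)))
  have e : (fun p : ℝ × ℝ => (p.2, u - p.1 - p.2))
      = (fun p : ℝ × ℝ => (p.1, u - p.1 - p.2)) ∘ Prod.swap := by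
    funext p
    simp only [Function.comp, Prod.swap]
    rw [sub_right_comm]
  rw [e]
  exact h

lemma mp_two (u : ℝ) : MeasurePreserving (fun p : ℝ × ℝ => (u - p.1 - p.2, p.1))
    (volume : Measure (ℝ × ℝ)) volume :=
  (Measure.measurePreserving_swap (μ := (volume : Measure ℝ))
    (ν := (volume : Measure ℝ))).comp (mp_shear u)

lemma int_mp {φ : ℝ × ℝ → ℝ × ℝ} (hφ : MeasurePreserving φ volume volume) {f : ℝ × ℝ → ℝ}
    (hf : Continuous f) : ∫ p, f (φ p) = ∫ p, f p := by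
  have := integral_map (μ := (volume : Measure (ℝ × ℝ))) hφ.measurable.aemeasurable
    (f := f) hf.aestronglyMeasurable
  rw [hφ.map_eq] at this
  exact this.symm

lemma cube_int {G : ℝ × ℝ → ℝ} (hG : CC G) : Integrable (fun p => |G p| ^ 3) volume := by
  refine (Continuous.integrable_of_hasCompactSupport ?_ ?_)
  · have := hG.1; fun_prop
  · refine hG.2.comp_left (g := fun x => |x| ^ 3) (by simp)

lemma cube_int_mp {G : ℝ × ℝ → ℝ} (hG : CC G) {φ : ℝ × ℝ → ℝ × ℝ}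
    (hφ : MeasurePreserving φ volume volume) : Integrable (fun p => |G (φ p)| ^ 3) volume :=
  hφ.integrable_comp_of_integrable (cube_int hG)

lemma I3_nonneg (G : ℝ × ℝ → ℝ) : 0 ≤ I3 G := integral_nonneg fun _ => by positivity

lemma amgm (x y z : ℝ) (hx : 0 ≤ x) (hy : 0 ≤ y) (hz : 0 ≤ z) :
    x * y * z ≤ (x ^ 3 + y ^ 3 + z ^ 3) / 3 := by
  nlinarith [mul_nonneg hx (sq_nonneg (x - y)), mul_nonneg hx (sq_nonneg (y - z)),
    mul_nonneg hx (sq_nonneg (x - z)), mul_nonneg hy (sq_nonneg (x - y)),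
    mul_nonneg hy (sq_nonneg (y - z)), mul_nonneg hy (sq_nonneg (x - z)),
    mul_nonneg hz (sq_nonneg (x - y)), mul_nonneg hz (sq_nonneg (y - z)),
    mul_nonneg hz (sq_nonneg (x - z))]

/-- Hoelder with three exponents `3`, with positive upper bounds of the norms -/
lemma holder_aux {G₀ G₁ G₂ : ℝ × ℝ → ℝ} (h₀ : CC G₀) (h₁ : CC G₁) (h₂ : CC G₂) (u : ℝ)
    {A B C : ℝ} (hA : 0 < A) (hB : 0 < B) (hC : 0 < C) (hA' : I3 G₀ ≤ A ^ 3)
    (hB' : I3 G₁ ≤ B ^ 3) (hC' : I3 G₂ ≤ C ^ 3) : |W G₀ G₁ G₂ u| ≤ A * B * C := by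
  have i0 := cube_int h₀
  have i1 := cube_int_mp h₁ (mp_one u)
  have i2 := cube_int_mp h₂ (mp_two u)
  have e1 : (∫ p : ℝ × ℝ, |G₁ (p.2, u - p.1 - p.2)| ^ 3) = I3 G₁ :=
    int_mp (mp_one u) (f := fun p => |G₁ p| ^ 3) (by have := h₁.1; fun_prop)
  have e2 : (∫ p : ℝ × ℝ, |G₂ (u - p.1 - p.2, p.1)| ^ 3) = I3 G₂ :=
    int_mp (mp_two u) (f := fun p => |G₂ p| ^ 3) (by have := h₂.1; fun_prop)
  have hb : ‖W G₀ G₁ G₂ u‖ ≤ ∫ p : ℝ × ℝ, A * B * C / 3 * (|G₀ p| ^ 3 / A ^ 3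
      + |G₁ (p.2, u - p.1 - p.2)| ^ 3 / B ^ 3 + |G₂ (u - p.1 - p.2, p.1)| ^ 3 / C ^ 3) := by
    refine norm_integral_le_of_norm_le ?_ (ae_of_all _ fun p => ?_)
    · exact (((i0.div_const _).add (i1.div_const _)).add (i2.div_const _)).const_mul _
    · have := amgm (|G₀ p| / A) (|G₁ (p.2, u - p.1 - p.2)| / B) (|G₂ (u - p.1 - p.2, p.1)| / C)
        (by positivity) (by positivity) (by positivity)
      rw [Real.norm_eq_abs, abs_mul, abs_mul]
      calc |G₀ (p.1, p.2)| * |G₁ (p.2, u - p.1 - p.2)| * |G₂ (u - p.1 - p.2, p.1)|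
          = A * B * C * (|G₀ p| / A * (|G₁ (p.2, u - p.1 - p.2)| / B)
            * (|G₂ (u - p.1 - p.2, p.1)| / C)) := by field_simp
        _ ≤ A * B * C * (((|G₀ p| / A) ^ 3 + (|G₁ (p.2, u - p.1 - p.2)| / B) ^ 3
            + (|G₂ (u - p.1 - p.2, p.1)| / C) ^ 3) / 3) :=
            mul_le_mul_of_nonneg_left this (by positivity)
        _ = _ := by rw [div_pow, div_pow, div_pow]; ring
  have i01 : Integrable (fun p : ℝ × ℝ => |G₀ p| ^ 3 / A ^ 3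
      + |G₁ (p.2, u - p.1 - p.2)| ^ 3 / B ^ 3) volume :=
    (i0.div_const (A ^ 3)).add (i1.div_const (B ^ 3))
  rw [integral_const_mul, integral_add i01 (i2.div_const _),
    integral_add (i0.div_const _) (i1.div_const _), integral_div, integral_div, integral_div,
    e1, e2] at hb
  rw [Real.norm_eq_abs] at hb
  have k0 : (∫ p : ℝ × ℝ, |G₀ p| ^ 3) / A ^ 3 ≤ 1 := (div_le_one (by positivity)).2 hA'
  have k1 : I3 G₁ / B ^ 3 ≤ 1 := (div_le_one (by positivity)).2 hB'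
  have k2 : I3 G₂ / C ^ 3 ≤ 1 := (div_le_one (by positivity)).2 hC'
  calc |W G₀ G₁ G₂ u| ≤ _ := hb
    _ ≤ A * B * C / 3 * (1 + 1 + 1) := by gcongr
    _ = A * B * C := by ring

lemma W_bound {G₀ G₁ G₂ : ℝ × ℝ → ℝ} (h₀ : CC G₀) (h₁ : CC G₁) (h₂ : CC G₂) (u : ℝ) :
    |W G₀ G₁ G₂ u| ≤ (I3 G₀) ^ ((1 : ℝ) / 3) * (I3 G₁) ^ ((1 : ℝ) / 3)
      * (I3 G₂) ^ ((1 : ℝ) / 3) := by
  set s₀ := (I3 G₀) ^ ((1 : ℝ) / 3) with hs0
  set s₁ := (I3 G₁) ^ ((1 : ℝ) / 3) with hs1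
  set s₂ := (I3 G₂) ^ ((1 : ℝ) / 3) with hs2
  have c : ∀ G : ℝ × ℝ → ℝ, ((I3 G) ^ ((1 : ℝ) / 3)) ^ 3 = I3 G := by
    intro G
    rw [← Real.rpow_natCast, ← Real.rpow_mul (I3_nonneg G)]
    norm_num
  have n : ∀ G : ℝ × ℝ → ℝ, 0 ≤ (I3 G) ^ ((1 : ℝ) / 3) := fun G =>
    Real.rpow_nonneg (I3_nonneg G) _
  have key : ∀ δ : ℝ, 0 < δ → |W G₀ G₁ G₂ u| ≤ (s₀ + δ) * (s₁ + δ) * (s₂ + δ) := by
    intro δ hδ
    refine holder_aux h₀ h₁ h₂ u (by have := n G₀; positivity) (by have := n G₁; positivity)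
      (by have := n G₂; positivity) ?_ ?_ ?_
    · rw [← c G₀]; exact pow_le_pow_left₀ (n G₀) (by linarith) 3
    · rw [← c G₁]; exact pow_le_pow_left₀ (n G₁) (by linarith) 3
    · rw [← c G₂]; exact pow_le_pow_left₀ (n G₂) (by linarith) 3
  have lim : Tendsto (fun δ : ℝ => (s₀ + δ) * (s₁ + δ) * (s₂ + δ)) (𝓝[>] 0)
      (𝓝 ((s₀ + 0) * (s₁ + 0) * (s₂ + 0))) := by
    refine Tendsto.mono_left (Continuous.tendsto ?_ 0) nhdsWithin_le_nhds
    fun_prop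
  have := ge_of_tendsto lim (b := |W G₀ G₁ G₂ u|)
    (eventually_nhdsWithin_of_forall fun δ hδ => key δ hδ)
  simpa using this

lemma W_cont {G₀ G₁ G₂ : ℝ × ℝ → ℝ} (h₀ : CC G₀) (h₁ : CC G₁) (h₂ : CC G₂) :
    Continuous (W G₀ G₁ G₂) := by
  have e : W G₀ G₁ G₂ = fun u => ∫ p in tsupport G₀, G₀ (p.1, p.2) * G₁ (p.2, u - p.1 - p.2)
      * G₂ (u - p.1 - p.2, p.1) := by
    funext u
    refine (setIntegral_eq_integral_of_forall_compl_eq_zero fun p hp => ?_).symm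
    have : G₀ (p.1, p.2) = 0 := image_eq_zero_of_notMem_tsupport hp
    rw [this]; ring
  rw [e]
  refine continuous_parametric_integral_of_continuous (f := fun (u : ℝ) (p : ℝ × ℝ) =>
    G₀ (p.1, p.2) * G₁ (p.2, u - p.1 - p.2) * G₂ (u - p.1 - p.2, p.1)) ?_ h₀.2
  have := h₀.1
  have := h₁.1
  have := h₂.1
  unfold Function.uncurry
  fun_prop

lemma W_supp {G₀ G₁ G₂ : ℝ × ℝ → ℝ} (h₀ : CC G₀) (h₁ : CC G₁) :
    HasCompactSupport (W G₀ G₁ G₂) := by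
  obtain ⟨R₀, hR₀⟩ := h₀.2.isBounded.subset_closedBall (0 : ℝ × ℝ)
  obtain ⟨R₁, hR₁⟩ := h₁.2.isBounded.subset_closedBall (0 : ℝ × ℝ)
  refine HasCompactSupport.of_support_subset_isCompact
    (isCompact_closedBall (0 : ℝ) (2 * R₀ + R₁)) fun u hu => ?_
  by_contra hn
  refine hu ?_
  have : ∀ p : ℝ × ℝ, G₀ (p.1, p.2) * G₁ (p.2, u - p.1 - p.2) * G₂ (u - p.1 - p.2, p.1) = 0 := by
    intro p
    by_contra hp
    have g0 : G₀ (p.1, p.2) ≠ 0 := fun h => hp (by rw [h]; ring)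
    have g1 : G₁ (p.2, u - p.1 - p.2) ≠ 0 := fun h => hp (by rw [h]; ring)
    have m0 := hR₀ (subset_tsupport _ g0)
    have m1 := hR₁ (subset_tsupport _ g1)
    rw [mem_closedBall_zero_iff, Prod.norm_def, max_le_iff] at m0 m1
    simp only [Real.norm_eq_abs] at m0 m1
    refine hn ?_
    rw [mem_closedBall_zero_iff, Real.norm_eq_abs]
    have h1 := abs_le.1 m0.1
    have h2 := abs_le.1 m0.2
    have h3 := abs_le.1 m1.2
    rw [abs_le]
    constructor <;> linarith [h1.1, h1.2, h2.1, h2.2, h3.1, h3.2]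
  show W G₀ G₁ G₂ u = 0
  unfold W
  simp only [this, integral_zero]

/-- **WL** -/
theorem wl : StW := fun _ _ _ h₀ h₁ h₂ =>
  ⟨⟨W_cont h₀ h₁ h₂, W_supp h₀ h₁⟩, W_bound h₀ h₁ h₂⟩

end Vale.Agent.P075.R.H97
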